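import Vale.Agent.P122.W840.Basic

/-! # P122 / AN-2 : weights (helper840)

Sums over lattices of polynomial weights; `stWS`. -/

open MeasureTheory Complex Set Vale.Agent.P122.C2
open scoped ENNReal NNReal FourierTransform

set_option linter.all false

namespace Vale.Agent.P122.W840

open Vale.Agent.P122.AN

/-- uniform summability of `(1+|x-k|)^(-3/2)` over the integers -/
lemma exists_sum_int : ∃ C : ℝ, 0 ≤ C ∧ ∀ (x : ℝ) (U : Finset ℤ), ∑ k ∈ U, ((1 + |x - k|) ^ (3 / 2 : ℝ))⁻¹ ≤ C := by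
  have hs : Summable fun n : ℤ => |(n : ℝ)| ^ (-(3 / 2 : ℝ)) := Real.summable_abs_int_rpow (by norm_num)
  have hs' : Summable fun n : ℤ => ((max 1 |(n : ℝ)|) ^ (3 / 2 : ℝ))⁻¹ := by
    refine Summable.of_norm_bounded_eventually (g := fun n : ℤ => |(n : ℝ)| ^ (-(3 / 2 : ℝ))) hs ?_
    have : ({0} : Set ℤ)ᶜ ∈ Filter.cofinite := (Set.finite_singleton (0 : ℤ)).compl_mem_cofinite
    filter_upwards [this] with n hn
    have hn' : n ≠ 0 := hn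
    have h1 : (1 : ℝ) ≤ |(n : ℝ)| := by
      have : (1 : ℤ) ≤ |n| := Int.one_le_abs hn'
      exact_mod_cast this
    rw [max_eq_right h1, Real.norm_of_nonneg (by positivity), Real.rpow_neg (abs_nonneg _)]
  refine ⟨∑' n : ℤ, ((max 1 |(n : ℝ)|) ^ (3 / 2 : ℝ))⁻¹, tsum_nonneg fun n => by positivity, ?_⟩
  intro x U
  calc ∑ k ∈ U, ((1 + |x - k|) ^ (3 / 2 : ℝ))⁻¹ ≤ ∑ k ∈ U, ((max 1 |((k - ⌊x⌋ : ℤ) : ℝ)|) ^ (3 / 2 : ℝ))⁻¹ := by
        apply Finset.sum_le_sum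
        intro k _
        gcongr
        apply max_le
        · have := abs_nonneg (x - k); linarith
        · have h1 : |x - ⌊x⌋| ≤ 1 := by
            rw [abs_le]; constructor
            · have := Int.floor_le x; linarith
            · have := Int.lt_floor_add_one x; linarith
          push_cast
          calc |(k : ℝ) - ⌊x⌋| = |(x - ⌊x⌋) - (x - k)| := by congr 1; ring
            _ ≤ |x - ⌊x⌋| + |x - k| := abs_sub _ _
            _ ≤ 1 + |x - k| := by linarith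
    _ = ∑ k ∈ U.map (Equiv.subRight ⌊x⌋).toEmbedding, ((max 1 |(k : ℝ)|) ^ (3 / 2 : ℝ))⁻¹ := by
        rw [Finset.sum_map]; rfl
    _ ≤ _ := hs'.sum_le_tsum _ (fun k _ => by positivity)

/-- uniform summability of `(1+|x-o₀|+|y-o₁|)^(-3)` over the lattice -/
lemma exists_sum_Z2 : ∃ C : ℝ, 0 ≤ C ∧ ∀ (x y : ℝ) (U : Finset (Fin 2 → ℤ)),
    ∑ o ∈ U, ((1 + |x - o 0| + |y - o 1|) ^ 3)⁻¹ ≤ C := by
  obtain ⟨C, hC, h⟩ := exists_sum_int
  refine ⟨C * C, by positivity, ?_⟩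
  intro x y U
  classical
  have key : ∀ o : Fin 2 → ℤ, ((1 + |x - o 0| + |y - o 1|) ^ 3)⁻¹ ≤
      ((1 + |x - o 0|) ^ (3 / 2 : ℝ))⁻¹ * ((1 + |y - o 1|) ^ (3 / 2 : ℝ))⁻¹ := by
    intro o
    rw [← mul_inv]
    have ha : (0 : ℝ) < 1 + |x - o 0| := by positivity
    have hb : (0 : ℝ) < 1 + |y - o 1| := by positivity
    have hab : (0 : ℝ) < 1 + |x - o 0| + |y - o 1| := by positivity
    apply inv_anti₀ (by positivity)
    have e : (1 + |x - o 0| + |y - o 1|) ^ 3 =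
        (1 + |x - o 0| + |y - o 1|) ^ (3 / 2 : ℝ) * (1 + |x - o 0| + |y - o 1|) ^ (3 / 2 : ℝ) := by
      rw [← Real.rpow_add hab, ← Real.rpow_natCast]; norm_num
    rw [e]
    have na := abs_nonneg (x - o 0)
    have nb := abs_nonneg (y - o 1)
    have r1 : (1 + |x - o 0|) ^ (3 / 2 : ℝ) ≤ (1 + |x - o 0| + |y - o 1|) ^ (3 / 2 : ℝ) :=
      Real.rpow_le_rpow ha.le (by linarith) (by norm_num)
    have r2 : (1 + |y - o 1|) ^ (3 / 2 : ℝ) ≤ (1 + |x - o 0| + |y - o 1|) ^ (3 / 2 : ℝ) :=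
      Real.rpow_le_rpow hb.le (by linarith) (by norm_num)
    exact mul_le_mul r1 r2 (by positivity) (by positivity)
  calc ∑ o ∈ U, ((1 + |x - o 0| + |y - o 1|) ^ 3)⁻¹
      ≤ ∑ o ∈ U, ((1 + |x - o 0|) ^ (3 / 2 : ℝ))⁻¹ * ((1 + |y - o 1|) ^ (3 / 2 : ℝ))⁻¹ :=
        Finset.sum_le_sum fun o _ => key o
    _ = ∑ q ∈ U.image (fun o => (o 0, o 1)), ((1 + |x - q.1|) ^ (3 / 2 : ℝ))⁻¹ * ((1 + |y - q.2|) ^ (3 / 2 : ℝ))⁻¹ := by
        rw [Finset.sum_image]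
        intro a _ b _ hab
        ext i
        fin_cases i
        · exact (Prod.ext_iff.1 hab).1
        · exact (Prod.ext_iff.1 hab).2
    _ ≤ ∑ q ∈ (U.image (fun o => o 0)) ×ˢ (U.image (fun o => o 1)),
          ((1 + |x - q.1|) ^ (3 / 2 : ℝ))⁻¹ * ((1 + |y - q.2|) ^ (3 / 2 : ℝ))⁻¹ := by
        apply Finset.sum_le_sum_of_subset_of_nonneg
        · intro q hq
          rw [Finset.mem_image] at hq
          obtain ⟨o, ho, rfl⟩ := hq
          rw [Finset.mem_product]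
          exact ⟨Finset.mem_image_of_mem _ ho, Finset.mem_image_of_mem _ ho⟩
        · intro q _ _; positivity
    _ = (∑ k ∈ U.image (fun o => o 0), ((1 + |x - k|) ^ (3 / 2 : ℝ))⁻¹) *
          ∑ k ∈ U.image (fun o => o 1), ((1 + |y - k|) ^ (3 / 2 : ℝ))⁻¹ := by
        rw [Finset.sum_product, Finset.sum_mul_sum]
    _ ≤ C * C := mul_le_mul (h _ _) (h _ _) (Finset.sum_nonneg fun k _ => by positivity) hC

/-- sum of the weights of parallel tubes: only the horizontal part of the gauge is needed -/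
lemma exists_sum_gau : ∃ C : ℝ, 0 ≤ C ∧ ∀ (ρ ρ3 : ℝ) (s : Fin 2 → ℝ) (U : Finset (Fin 2 → ℤ)) (t : ℝ) (z : E3),
    0 < ρ → 0 < ρ3 →
    ∑ o ∈ U, ((1 + gau 0 ρ ρ ρ3 s (z - !₂[ρ * o 0, ρ * o 1, t])) ^ 3)⁻¹ ≤ C := by
  obtain ⟨C, hC, h⟩ := exists_sum_Z2
  refine ⟨C, hC, ?_⟩
  intro ρ ρ3 s U t z hρ hρ3
  refine le_trans (Finset.sum_le_sum fun o _ => ?_)
    (h ((z 0 - s 0 * (z 2 - t)) / ρ) ((z 1 - s 1 * (z 2 - t)) / ρ) U)
  apply inv_anti₀ (by positivity)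
  refine pow_le_pow_left₀ (by positivity) ?_ 3
  have e : gau 0 ρ ρ ρ3 s (z - !₂[ρ * o 0, ρ * o 1, t]) =
      |(z 0 - s 0 * (z 2 - t)) / ρ - o 0| + |(z 1 - s 1 * (z 2 - t)) / ρ - o 1| + |z 2 - t| / ρ3 := by
    have a0 : (z 0 - s 0 * (z 2 - t)) / ρ - o 0 = (z 0 - ρ * o 0 - s 0 * (z 2 - t)) / ρ := by field_simp; ring
    have a1 : (z 1 - s 1 * (z 2 - t)) / ρ - o 1 = (z 1 - ρ * o 1 - s 1 * (z 2 - t)) / ρ := by field_simp; ring
    rw [a0, a1, abs_div, abs_div, abs_of_pos hρ]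
    simp [gau, fw, fn, dv]
  rw [e]
  have : 0 ≤ |z 2 - t| / ρ3 := by positivity
  linarith

/-- [WS] -/
theorem stWS : StWS := by
  intro M c hc
  obtain ⟨C0, hC0, h0⟩ := exists_sum_gau
  set B : ℝ := 3 * c + 3 with hB
  refine ⟨B ^ M * C0, by positivity, ?_⟩
  intro ρ ρ3 θ R1 R2 s s' U t p hρ hρ3 hR1 hR2 hw hn hU z
  have hR1' : 0 < R1 := by linarith
  have hR2' : 0 < R2 := by linarith
  have key : ∀ o ∈ U, 1 + gau θ R1 R2 ρ3 s (z - p) ≤ B * (1 + gau 0 ρ ρ ρ3 s' (z - !₂[ρ * o 0, ρ * o 1, t])) := by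
    intro o ho
    set q : E3 := !₂[ρ * o 0, ρ * o 1, t] with hq
    have e : z - p = (z - q) + (q - p) := by abel
    have h1 := gau_add_le (θ := θ) hR1' hR2' hρ3 s (z - q) (q - p)
    rw [← e] at h1
    have h2 := hU o ho
    have h3 := gau_le hc (θ := θ) (θ' := 0) (R1 := R1) (R2 := R2) (R3 := ρ3) (s := s) (s' := s') hρ hρ hρ3
      (Or.inr ⟨⟨hR1, hR2⟩, hR1, hR2⟩) le_rfl hw hn (z - q)
    have h4 := gau_nonneg (θ := 0) hρ hρ hρ3 s' (z - q)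
    rw [hB]
    nlinarith
  have term : ∀ o ∈ U, wg (M + 3) 0 ρ ρ ρ3 s' (z - !₂[ρ * o 0, ρ * o 1, t]) ≤
      ENNReal.ofReal (B ^ M * ((1 + gau 0 ρ ρ ρ3 s' (z - !₂[ρ * o 0, ρ * o 1, t])) ^ 3)⁻¹ *
        ((1 + gau θ R1 R2 ρ3 s (z - p)) ^ M)⁻¹) := by
    intro o ho
    unfold wg
    apply ENNReal.ofReal_le_ofReal
    have k := key o ho
    have g1 := gau_nonneg (θ := 0) hρ hρ hρ3 s' (z - !₂[ρ * o 0, ρ * o 1, t])
    have g2 := gau_nonneg (θ := θ) hR1' hR2' hρ3 s (z - p)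
    set a := 1 + gau 0 ρ ρ ρ3 s' (z - !₂[ρ * o 0, ρ * o 1, t]) with ha
    set b := 1 + gau θ R1 R2 ρ3 s (z - p) with hb
    have ha0 : 0 < a := by linarith
    have hb0 : 0 < b := by linarith
    have hBpos : 0 < B := by rw [hB]; linarith
    have hM : b ^ M ≤ B ^ M * a ^ M := by
      rw [← mul_pow]; exact pow_le_pow_left₀ hb0.le k M
    calc (a ^ (M + 3))⁻¹ = (a ^ 3)⁻¹ * (a ^ M)⁻¹ := by rw [pow_add, mul_inv, mul_comm]
      _ ≤ (a ^ 3)⁻¹ * (B ^ M * (b ^ M)⁻¹) := by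
          gcongr
          rw [inv_le_iff_one_le_mul₀ (by positivity)]
          calc (1 : ℝ) = b ^ M * (b ^ M)⁻¹ := by rw [mul_inv_cancel₀ (by positivity)]
            _ ≤ (B ^ M * a ^ M) * (b ^ M)⁻¹ := by gcongr
            _ = _ := by ring
      _ = _ := by ring
  calc ∑ o ∈ U, wg (M + 3) 0 ρ ρ ρ3 s' (z - !₂[ρ * o 0, ρ * o 1, t])
      ≤ ∑ o ∈ U, ENNReal.ofReal (B ^ M * ((1 + gau 0 ρ ρ ρ3 s' (z - !₂[ρ * o 0, ρ * o 1, t])) ^ 3)⁻¹ *
        ((1 + gau θ R1 R2 ρ3 s (z - p)) ^ M)⁻¹) := Finset.sum_le_sum term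
    _ = ENNReal.ofReal (∑ o ∈ U, B ^ M * ((1 + gau 0 ρ ρ ρ3 s' (z - !₂[ρ * o 0, ρ * o 1, t])) ^ 3)⁻¹ *
        ((1 + gau θ R1 R2 ρ3 s (z - p)) ^ M)⁻¹) := by
        rw [ENNReal.ofReal_sum_of_nonneg]
        intro o _
        have g1 := gau_nonneg (θ := 0) hρ hρ hρ3 s' (z - !₂[ρ * o 0, ρ * o 1, t])
        have g2 := gau_nonneg (θ := θ) hR1' hR2' hρ3 s (z - p)
        have hBpos : 0 < B := by rw [hB]; linarith
        positivity
    _ ≤ ENNReal.ofReal ((B ^ M * C0) * ((1 + gau θ R1 R2 ρ3 s (z - p)) ^ M)⁻¹) := by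
        apply ENNReal.ofReal_le_ofReal
        rw [← Finset.sum_mul, ← Finset.mul_sum]
        have g2 := gau_nonneg (θ := θ) hR1' hR2' hρ3 s (z - p)
        have hBpos : 0 < B := by rw [hB]; linarith
        have := h0 ρ ρ3 s' U t z hρ hρ3
        gcongr
    _ = _ := by
        have hBpos : 0 < B := by rw [hB]; linarith
        rw [ENNReal.ofReal_mul (by positivity)]; rfl

end Vale.Agent.P122.W840
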