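import Vale.Agent.P122.W840.Sum

/-! # P122 / AN-2 : weights (helper840)

Integrals of the weights; `stWI`. -/

open MeasureTheory Complex Set Vale.Agent.P122.C2
open scoped ENNReal NNReal FourierTransform

set_option linter.all false

namespace Vale.Agent.P122.W840

open Vale.Agent.P122.AN

/-- the matrix of the box -/
noncomputable def bxM (θ ρ1 ρ2 ρ3 : ℝ) (s : Fin 2 → ℝ) : Matrix (Fin 3) (Fin 3) ℝ :=
  !![Real.cos θ / ρ1, Real.sin θ / ρ1, -(Real.cos θ * s 0 + Real.sin θ * s 1) / ρ1;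
     -Real.sin θ / ρ2, Real.cos θ / ρ2, -(-Real.sin θ * s 0 + Real.cos θ * s 1) / ρ2;
     0, 0, 1 / ρ3]

/-- the normalising linear map of the box -/
noncomputable def bxL (θ ρ1 ρ2 ρ3 : ℝ) (s : Fin 2 → ℝ) : E3 →ₗ[ℝ] E3 :=
  Matrix.toLin (PiLp.basisFun 2 ℝ (Fin 3)) (PiLp.basisFun 2 ℝ (Fin 3)) (bxM θ ρ1 ρ2 ρ3 s)

lemma bxL_apply (θ ρ1 ρ2 ρ3 : ℝ) (s : Fin 2 → ℝ) (z : E3) :
    bxL θ ρ1 ρ2 ρ3 s z = !₂[fw θ (dv s z) / ρ1, fn θ (dv s z) / ρ2, z 2 / ρ3] := by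
  unfold bxL
  rw [← Matrix.toLpLin_eq_toLin]
  ext i
  rw [Matrix.toLpLin_apply]
  fin_cases i
  · simp [bxM, Matrix.mulVec, dotProduct, Fin.sum_univ_three, fw, dv]; ring
  · simp [bxM, Matrix.mulVec, dotProduct, Fin.sum_univ_three, fn, dv]; ring
  · simp [bxM, Matrix.mulVec, dotProduct, Fin.sum_univ_three]; ring

lemma bxL_det {θ ρ1 ρ2 ρ3 : ℝ} (h1 : 0 < ρ1) (h2 : 0 < ρ2) (h3 : 0 < ρ3) (s : Fin 2 → ℝ) :
    LinearMap.det (bxL θ ρ1 ρ2 ρ3 s) = (ρ1 * ρ2 * ρ3)⁻¹ := by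
  unfold bxL
  rw [LinearMap.det_toLin, bxM, Matrix.det_fin_three]
  have := Real.sin_sq_add_cos_sq θ
  simp
  field_simp
  linear_combination this

/-- change of variables: boxes -/
lemma lintegral_bxL {θ ρ1 ρ2 ρ3 : ℝ} (h1 : 0 < ρ1) (h2 : 0 < ρ2) (h3 : 0 < ρ3) (s : Fin 2 → ℝ)
    {f : E3 → ℝ≥0∞} (hf : Measurable f) :
    ∫⁻ z, f (bxL θ ρ1 ρ2 ρ3 s z) = ENNReal.ofReal (ρ1 * ρ2 * ρ3) * ∫⁻ z, f z := by
  have hd : LinearMap.det (bxL θ ρ1 ρ2 ρ3 s) ≠ 0 := by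
    rw [bxL_det h1 h2 h3]; positivity
  have hm : Measurable (bxL θ ρ1 ρ2 ρ3 s) := (LinearMap.continuous_of_finiteDimensional _).measurable
  rw [← lintegral_map hf hm, Measure.map_linearMap_addHaar_eq_smul_addHaar volume hd, lintegral_smul_measure,
    bxL_det h1 h2 h3, inv_inv, abs_of_pos (by positivity), smul_eq_mul]

lemma norm_bxL_le (θ ρ1 ρ2 ρ3 : ℝ) (h1 : 0 < ρ1) (h2 : 0 < ρ2) (h3 : 0 < ρ3) (s : Fin 2 → ℝ) (z : E3) :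
    ‖bxL θ ρ1 ρ2 ρ3 s z‖ ≤ gau θ ρ1 ρ2 ρ3 s z := by
  rw [bxL_apply, EuclideanSpace.norm_eq, Fin.sum_univ_three]
  unfold gau
  rw [Real.sqrt_le_left (by positivity)]
  simp only [Matrix.cons_val_zero, Matrix.cons_val_one, Matrix.cons_val, Real.norm_eq_abs, abs_div, abs_of_pos h1,
    abs_of_pos h2, abs_of_pos h3]
  have p1 : 0 ≤ |fw θ (dv s z)| / ρ1 := by positivity
  have p2 : 0 ≤ |fn θ (dv s z)| / ρ2 := by positivity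
  have p3 : 0 ≤ |z 2| / ρ3 := by positivity
  nlinarith [mul_nonneg p1 p2, mul_nonneg p1 p3, mul_nonneg p2 p3]

/-- [WI] -/
theorem stWI : StWI := by
  set I : ℝ≥0∞ := ∫⁻ z : E3, ENNReal.ofReal ((1 + ‖z‖) ^ (-(4 : ℝ))) with hI
  have hfin : I < ⊤ := by
    apply finite_integral_one_add_norm
    simp only [finrank_euclideanSpace, Fintype.card_fin]
    norm_num
  refine ⟨I.toReal, ENNReal.toReal_nonneg, ?_⟩
  intro M θ ρ1 ρ2 ρ3 s z0 hM h1 h2 h3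
  have hm : Measurable fun z : E3 => ENNReal.ofReal ((1 + ‖z‖) ^ (-(4 : ℝ))) := by fun_prop
  calc ∫⁻ z, wg M θ ρ1 ρ2 ρ3 s (z - z0) = ∫⁻ z, wg M θ ρ1 ρ2 ρ3 s z :=
        lintegral_sub_right_eq_self (fun z => wg M θ ρ1 ρ2 ρ3 s z) z0
    _ ≤ ∫⁻ z, ENNReal.ofReal ((1 + ‖bxL θ ρ1 ρ2 ρ3 s z‖) ^ (-(4 : ℝ))) := by
        apply lintegral_mono
        intro z
        unfold wg
        apply ENNReal.ofReal_le_ofReal
        rw [Real.rpow_neg (by positivity)]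
        apply inv_anti₀ (by positivity)
        have hg := norm_bxL_le θ ρ1 ρ2 ρ3 h1 h2 h3 s z
        have hn : 0 ≤ ‖bxL θ ρ1 ρ2 ρ3 s z‖ := norm_nonneg _
        calc (1 + ‖bxL θ ρ1 ρ2 ρ3 s z‖) ^ (4 : ℝ) = (1 + ‖bxL θ ρ1 ρ2 ρ3 s z‖) ^ 4 := by
              rw [← Real.rpow_natCast]; norm_num
          _ ≤ (1 + gau θ ρ1 ρ2 ρ3 s z) ^ 4 := by gcongr
          _ ≤ (1 + gau θ ρ1 ρ2 ρ3 s z) ^ M := by
              apply pow_le_pow_right₀ (by linarith) hM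
    _ = ENNReal.ofReal (ρ1 * ρ2 * ρ3) * I := lintegral_bxL h1 h2 h3 s hm
    _ = _ := by
        rw [ENNReal.ofReal_mul ENNReal.toReal_nonneg, ENNReal.ofReal_toReal hfin.ne, mul_comm]

end Vale.Agent.P122.W840
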