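import Vale.Agent.P122.AN.Defs

/-! # P122 / AN-2 : weights (helper840)

Elementary facts about the gauges of sheared boxes; `stWG`. -/

open MeasureTheory Complex Set Vale.Agent.P122.C2
open scoped ENNReal NNReal FourierTransform

set_option linter.all false

namespace Vale.Agent.P122.W840

open Vale.Agent.P122.AN

lemma fw_abs_le (θ : ℝ) (d : Fin 2 → ℝ) : |fw θ d| ≤ |d 0| + |d 1| := by
  unfold fw
  have h1 := Real.abs_cos_le_one θ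
  have h2 := Real.abs_sin_le_one θ
  calc |Real.cos θ * d 0 + Real.sin θ * d 1| ≤ |Real.cos θ * d 0| + |Real.sin θ * d 1| := abs_add_le _ _
    _ = |Real.cos θ| * |d 0| + |Real.sin θ| * |d 1| := by rw [abs_mul, abs_mul]
    _ ≤ 1 * |d 0| + 1 * |d 1| := by gcongr
    _ = _ := by ring

lemma fn_abs_le (θ : ℝ) (d : Fin 2 → ℝ) : |fn θ d| ≤ |d 0| + |d 1| := by
  unfold fn
  have h1 := Real.abs_cos_le_one θ
  have h2 := Real.abs_sin_le_one θ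
  calc |-Real.sin θ * d 0 + Real.cos θ * d 1| ≤ |-Real.sin θ * d 0| + |Real.cos θ * d 1| := abs_add_le _ _
    _ = |Real.sin θ| * |d 0| + |Real.cos θ| * |d 1| := by rw [abs_mul, abs_mul, abs_neg]
    _ ≤ 1 * |d 0| + 1 * |d 1| := by gcongr
    _ = _ := by ring

lemma inv_frame0 (θ : ℝ) (d : Fin 2 → ℝ) : d 0 = Real.cos θ * fw θ d - Real.sin θ * fn θ d := by
  unfold fw fn
  have := Real.sin_sq_add_cos_sq θ
  linear_combination (-(d 0)) * this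

lemma inv_frame1 (θ : ℝ) (d : Fin 2 → ℝ) : d 1 = Real.sin θ * fw θ d + Real.cos θ * fn θ d := by
  unfold fw fn
  have := Real.sin_sq_add_cos_sq θ
  linear_combination (-(d 1)) * this

lemma abs0_le (θ : ℝ) (d : Fin 2 → ℝ) : |d 0| ≤ |fw θ d| + |fn θ d| := by
  have h1 := Real.abs_cos_le_one θ
  have h2 := Real.abs_sin_le_one θ
  calc |d 0| = |Real.cos θ * fw θ d - Real.sin θ * fn θ d| := by rw [← inv_frame0]
    _ ≤ |Real.cos θ * fw θ d| + |Real.sin θ * fn θ d| := abs_sub _ _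
    _ = |Real.cos θ| * |fw θ d| + |Real.sin θ| * |fn θ d| := by rw [abs_mul, abs_mul]
    _ ≤ 1 * |fw θ d| + 1 * |fn θ d| := by gcongr
    _ = _ := by ring

lemma abs1_le (θ : ℝ) (d : Fin 2 → ℝ) : |d 1| ≤ |fw θ d| + |fn θ d| := by
  have h1 := Real.abs_cos_le_one θ
  have h2 := Real.abs_sin_le_one θ
  calc |d 1| = |Real.sin θ * fw θ d + Real.cos θ * fn θ d| := by rw [← inv_frame1]
    _ ≤ |Real.sin θ * fw θ d| + |Real.cos θ * fn θ d| := abs_add_le _ _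
    _ = |Real.sin θ| * |fw θ d| + |Real.cos θ| * |fn θ d| := by rw [abs_mul, abs_mul]
    _ ≤ 1 * |fw θ d| + 1 * |fn θ d| := by gcongr
    _ = _ := by ring

/-- change of frame -/
lemma fw_le_frame (θ θ' : ℝ) (d : Fin 2 → ℝ) : |fw θ d| ≤ 2 * (|fw θ' d| + |fn θ' d|) := by
  have := fw_abs_le θ d
  have h0 := abs0_le θ' d
  have h1 := abs1_le θ' d
  linarith

lemma fn_le_frame (θ θ' : ℝ) (d : Fin 2 → ℝ) : |fn θ d| ≤ 2 * (|fw θ' d| + |fn θ' d|) := by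
  have := fn_abs_le θ d
  have h0 := abs0_le θ' d
  have h1 := abs1_le θ' d
  linarith

lemma fw_dv (θ : ℝ) (s s' : Fin 2 → ℝ) (z : E3) :
    fw θ (dv s z) = fw θ (dv s' z) - fw θ (fun i => s i - s' i) * z 2 := by
  simp [fw, dv]; ring

lemma fn_dv (θ : ℝ) (s s' : Fin 2 → ℝ) (z : E3) :
    fn θ (dv s z) = fn θ (dv s' z) - fn θ (fun i => s i - s' i) * z 2 := by
  simp [fn, dv]; ring

lemma fw_dv_add (θ : ℝ) (s : Fin 2 → ℝ) (z w : E3) : fw θ (dv s (z + w)) = fw θ (dv s z) + fw θ (dv s w) := by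
  simp [fw, dv]; ring

lemma fn_dv_add (θ : ℝ) (s : Fin 2 → ℝ) (z w : E3) : fn θ (dv s (z + w)) = fn θ (dv s z) + fn θ (dv s w) := by
  simp [fn, dv]; ring

lemma gau_nonneg {θ ρ1 ρ2 ρ3 : ℝ} (h1 : 0 < ρ1) (h2 : 0 < ρ2) (h3 : 0 < ρ3) (s : Fin 2 → ℝ) (z : E3) :
    0 ≤ gau θ ρ1 ρ2 ρ3 s z := by
  unfold gau; positivity

/-- triangle inequality -/
lemma gau_add_le {θ ρ1 ρ2 ρ3 : ℝ} (h1 : 0 < ρ1) (h2 : 0 < ρ2) (h3 : 0 < ρ3) (s : Fin 2 → ℝ) (z w : E3) :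
    gau θ ρ1 ρ2 ρ3 s (z + w) ≤ gau θ ρ1 ρ2 ρ3 s z + gau θ ρ1 ρ2 ρ3 s w := by
  unfold gau
  have e1 : |fw θ (dv s (z + w))| / ρ1 ≤ |fw θ (dv s z)| / ρ1 + |fw θ (dv s w)| / ρ1 := by
    rw [← add_div, fw_dv_add]; gcongr; exact abs_add_le _ _
  have e2 : |fn θ (dv s (z + w))| / ρ2 ≤ |fn θ (dv s z)| / ρ2 + |fn θ (dv s w)| / ρ2 := by
    rw [← add_div, fn_dv_add]; gcongr; exact abs_add_le _ _
  have e3 : |(z + w) 2| / ρ3 ≤ |z 2| / ρ3 + |w 2| / ρ3 := by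
    rw [← add_div]; gcongr; simpa using abs_add_le (z 2) (w 2)
  linarith

/-- [WG] -/
lemma gau_le {c : ℝ} (hc : 1 ≤ c) {θ θ' ρ1 ρ2 ρ3 R1 R2 R3 : ℝ} {s s' : Fin 2 → ℝ}
    (h1 : 0 < ρ1) (h2 : 0 < ρ2) (h3 : 0 < ρ3)
    (h : θ' = θ ∧ ρ1 ≤ R1 ∧ ρ2 ≤ R2 ∨ (ρ1 ≤ R1 ∧ ρ1 ≤ R2) ∧ ρ2 ≤ R1 ∧ ρ2 ≤ R2) (h33 : ρ3 ≤ R3)
    (hw : |fw θ (fun i => s i - s' i)| * ρ3 ≤ c * R1) (hn : |fn θ (fun i => s i - s' i)| * ρ3 ≤ c * R2) (z : E3) :
    gau θ R1 R2 R3 s z ≤ (2 * c + 2) * gau θ' ρ1 ρ2 ρ3 s' z := by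
  have hR1 : 0 < R1 := by rcases h with ⟨-, h, -⟩ | ⟨⟨h, -⟩, -⟩ <;> linarith
  have hR2 : 0 < R2 := by rcases h with ⟨-, -, h⟩ | ⟨⟨-, h⟩, -⟩ <;> linarith
  have hR3 : 0 < R3 := by linarith
  -- the time part
  have et : |z 2| / R3 ≤ |z 2| / ρ3 := by gcongr
  have ew : |fw θ (dv s z)| / R1 ≤ |fw θ (dv s' z)| / R1 + c * (|z 2| / ρ3) := by
    have : |fw θ (dv s z)| ≤ |fw θ (dv s' z)| + |fw θ (fun i => s i - s' i)| * |z 2| := by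
      rw [fw_dv θ s s' z, ← abs_mul]; exact abs_sub _ _
    calc |fw θ (dv s z)| / R1 ≤ (|fw θ (dv s' z)| + |fw θ (fun i => s i - s' i)| * |z 2|) / R1 := by gcongr
      _ = |fw θ (dv s' z)| / R1 + (|fw θ (fun i => s i - s' i)| * ρ3) * (|z 2| / ρ3) / R1 := by
          field_simp
      _ ≤ |fw θ (dv s' z)| / R1 + (c * R1) * (|z 2| / ρ3) / R1 := by gcongr
      _ = _ := by field_simp
  have en : |fn θ (dv s z)| / R2 ≤ |fn θ (dv s' z)| / R2 + c * (|z 2| / ρ3) := by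
    have : |fn θ (dv s z)| ≤ |fn θ (dv s' z)| + |fn θ (fun i => s i - s' i)| * |z 2| := by
      rw [fn_dv θ s s' z, ← abs_mul]; exact abs_sub _ _
    calc |fn θ (dv s z)| / R2 ≤ (|fn θ (dv s' z)| + |fn θ (fun i => s i - s' i)| * |z 2|) / R2 := by gcongr
      _ = |fn θ (dv s' z)| / R2 + (|fn θ (fun i => s i - s' i)| * ρ3) * (|z 2| / ρ3) / R2 := by
          field_simp
      _ ≤ |fn θ (dv s' z)| / R2 + (c * R2) * (|z 2| / ρ3) / R2 := by gcongr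
      _ = _ := by field_simp
  have p3 : 0 ≤ |z 2| / ρ3 := by positivity
  have p1 : 0 ≤ |fw θ' (dv s' z)| / ρ1 := by positivity
  have p2 : 0 ≤ |fn θ' (dv s' z)| / ρ2 := by positivity
  have main : |fw θ (dv s' z)| / R1 + |fn θ (dv s' z)| / R2 ≤ 4 * (|fw θ' (dv s' z)| / ρ1 + |fn θ' (dv s' z)| / ρ2) := by
    rcases h with ⟨rfl, a1, a2⟩ | ⟨⟨a1, a2⟩, a3, a4⟩
    · have b1 : |fw θ' (dv s' z)| / R1 ≤ |fw θ' (dv s' z)| / ρ1 := by gcongr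
      have b2 : |fn θ' (dv s' z)| / R2 ≤ |fn θ' (dv s' z)| / ρ2 := by gcongr
      linarith
    · have c1 : |fw θ' (dv s' z)| / R1 ≤ |fw θ' (dv s' z)| / ρ1 := by gcongr
      have c2 : |fn θ' (dv s' z)| / R1 ≤ |fn θ' (dv s' z)| / ρ2 := by gcongr
      have c3 : |fw θ' (dv s' z)| / R2 ≤ |fw θ' (dv s' z)| / ρ1 := by gcongr
      have c4 : |fn θ' (dv s' z)| / R2 ≤ |fn θ' (dv s' z)| / ρ2 := by gcongr
      have b1 : |fw θ (dv s' z)| / R1 ≤ 2 * (|fw θ' (dv s' z)| / R1 + |fn θ' (dv s' z)| / R1) := by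
        rw [← add_div, ← mul_div_assoc]; gcongr; exact fw_le_frame _ _ _
      have b2 : |fn θ (dv s' z)| / R2 ≤ 2 * (|fw θ' (dv s' z)| / R2 + |fn θ' (dv s' z)| / R2) := by
        rw [← add_div, ← mul_div_assoc]; gcongr; exact fn_le_frame _ _ _
      linarith
  have hg : gau θ R1 R2 R3 s z ≤ 4 * (|fw θ' (dv s' z)| / ρ1 + |fn θ' (dv s' z)| / ρ2) + (2 * c + 1) * (|z 2| / ρ3) := by
    unfold gau; linarith
  calc gau θ R1 R2 R3 s z ≤ 4 * (|fw θ' (dv s' z)| / ρ1 + |fn θ' (dv s' z)| / ρ2) + (2 * c + 1) * (|z 2| / ρ3) := hg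
    _ ≤ (2 * c + 2) * (|fw θ' (dv s' z)| / ρ1 + |fn θ' (dv s' z)| / ρ2) + (2 * c + 2) * (|z 2| / ρ3) := by
        gcongr
        · linarith
        · linarith
    _ = (2 * c + 2) * gau θ' ρ1 ρ2 ρ3 s' z := by unfold gau; ring

theorem stWG : StWG := by
  intro c hc
  refine ⟨2 * c + 2, by linarith, ?_⟩
  intro θ θ' ρ1 ρ2 ρ3 R1 R2 R3 s s' h1 h2 h3 h h33 hw hn z
  exact gau_le hc h1 h2 h3 h h33 hw hn z

end Vale.Agent.P122.W840
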