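import Vale.Agent.P122.H466.Pie

/-! # P122 / AN : columns (helper840)

`near2` : the caps which interact on the strip box of direction `θ` lie in `O(1)` columns of `ψ`. -/

open MeasureTheory Complex Set Vale.Agent.P122.C2
open scoped ENNReal NNReal FourierTransform

set_option linter.all false

namespace Vale.Agent.P122.W840

open Vale.Agent.P122.AN

/-- the slope on the support of the piece of a cap -/
lemma slope_gs {C0 : ℝ} {K n : ℕ} {Q : Set (Fin 2 → ℝ)} {h : (Fin 2 → ℝ) → ℝ} {v : (Fin 2 → ℝ) → Fin 2 → ℝ}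
    {g : Z2 → E3 → ℂ} (hC0 : 1 ≤ C0) (D : Dat C0 K n Q h v g) {i : ℕ} (hi : i ≤ K) {τ : Z2} {ξ : E3}
    (hξ : gs K n g i τ ξ ≠ 0) :
    hz ξ ∈ Q ∧ ∀ k, |v (hz ξ) k - τ k / 2 ^ (i * n)| ≤ (C0 + 1) / 2 ^ (i * n) := by
  obtain ⟨θ, hθ, hg⟩ := Finset.exists_ne_zero_of_sum_ne_zero hξ
  refine ⟨D.dom θ ξ hg, fun k => ?_⟩
  have h1 := D.slope θ ξ hg k
  have h2 := (Finset.mem_Ico.1 ((Fintype.mem_piFinset.1 hθ) k))
  have a1 : (2:ℝ) ^ ((K - i) * n) * τ k ≤ θ k := by exact_mod_cast h2.1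
  have a2 : (θ k : ℝ) ≤ 2 ^ ((K - i) * n) * (τ k + 1) := by exact_mod_cast h2.2.le
  have e : (2:ℝ) ^ (K * n) = 2 ^ ((K - i) * n) * 2 ^ (i * n) := by
    rw [← pow_add, ← Nat.add_mul, Nat.sub_add_cancel hi]
  have p1 : (0:ℝ) < 2 ^ ((K - i) * n) := by positivity
  have p2 : (0:ℝ) < 2 ^ (i * n) := by positivity
  have hK : (0:ℝ) < 2 ^ (K * n) := by positivity
  have h3 : |(θ k : ℝ) / 2 ^ (K * n) - τ k / 2 ^ (i * n)| ≤ 1 / 2 ^ (i * n) := by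
    have : (θ k : ℝ) / 2 ^ (K * n) - τ k / 2 ^ (i * n) = (θ k - 2 ^ ((K - i) * n) * τ k) / 2 ^ (K * n) := by
      rw [e]; field_simp
    rw [this, abs_div, abs_of_pos hK, abs_of_nonneg (by linarith), div_le_div_iff₀ hK p2, e]
    have : (θ k : ℝ) - 2 ^ ((K - i) * n) * τ k ≤ 2 ^ ((K - i) * n) := by linarith
    calc ((θ k : ℝ) - 2 ^ ((K - i) * n) * τ k) * 2 ^ (i * n) ≤ 2 ^ ((K - i) * n) * 2 ^ (i * n) := by gcongr
      _ = _ := by ring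
  have h4 : C0 / 2 ^ (K * n) ≤ C0 / 2 ^ (i * n) := by
    apply div_le_div_of_nonneg_left (by linarith) p2
    exact pow_le_pow_right₀ (by norm_num) (Nat.mul_le_mul_right n hi)
  calc |v (hz ξ) k - τ k / 2 ^ (i * n)|
      = |(v (hz ξ) k - θ k / 2 ^ (K * n)) + ((θ k : ℝ) / 2 ^ (K * n) - τ k / 2 ^ (i * n))| := by congr 1; ring
    _ ≤ |v (hz ξ) k - θ k / 2 ^ (K * n)| + |(θ k : ℝ) / 2 ^ (K * n) - τ k / 2 ^ (i * n)| := abs_add_le _ _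
    _ ≤ C0 / 2 ^ (i * n) + 1 / 2 ^ (i * n) := by linarith
    _ = _ := by ring

/-- parent slopes -/
lemma slope_par {C0 : ℝ} {n i : ℕ} {τ τ' : Z2} {w : Fin 2 → ℝ} (hC0 : 1 ≤ C0) (hk : τ' ∈ kids n τ)
    (hw : ∀ k, |w k - τ' k / 2 ^ ((i + 1) * n)| ≤ (C0 + 1) / 2 ^ ((i + 1) * n)) :
    ∀ k, |w k - τ k / 2 ^ (i * n)| ≤ (C0 + 2) / 2 ^ (i * n) := by
  intro k
  have h2 := (Finset.mem_Ico.1 ((Fintype.mem_piFinset.1 hk) k))
  have a1 : (2:ℝ) ^ n * τ k ≤ τ' k := by exact_mod_cast h2.1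
  have a2 : (τ' k : ℝ) ≤ 2 ^ n * (τ k + 1) := by exact_mod_cast h2.2.le
  have e : (2:ℝ) ^ ((i + 1) * n) = 2 ^ n * 2 ^ (i * n) := by rw [← pow_add]; congr 1; ring
  have p1 : (0:ℝ) < 2 ^ n := by positivity
  have p2 : (0:ℝ) < 2 ^ (i * n) := by positivity
  have hK : (0:ℝ) < 2 ^ ((i + 1) * n) := by positivity
  have h3 : |(τ' k : ℝ) / 2 ^ ((i + 1) * n) - τ k / 2 ^ (i * n)| ≤ 1 / 2 ^ (i * n) := by
    have : (τ' k : ℝ) / 2 ^ ((i + 1) * n) - τ k / 2 ^ (i * n) = (τ' k - 2 ^ n * τ k) / 2 ^ ((i + 1) * n) := by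
      rw [e]; field_simp
    rw [this, abs_div, abs_of_pos hK, abs_of_nonneg (by linarith), div_le_div_iff₀ hK p2, e]
    have : (τ' k : ℝ) - 2 ^ n * τ k ≤ 2 ^ n := by linarith
    calc ((τ' k : ℝ) - 2 ^ n * τ k) * 2 ^ (i * n) ≤ 2 ^ n * 2 ^ (i * n) := by gcongr
      _ = _ := by ring
  have h4 : (C0 + 1) / 2 ^ ((i + 1) * n) ≤ (C0 + 1) / 2 ^ (i * n) := by
    apply div_le_div_of_nonneg_left (by linarith) p2
    exact pow_le_pow_right₀ (by norm_num) (Nat.mul_le_mul_right n (by omega))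
  have := hw k
  calc |w k - τ k / 2 ^ (i * n)|
      = |(w k - τ' k / 2 ^ ((i + 1) * n)) + ((τ' k : ℝ) / 2 ^ ((i + 1) * n) - τ k / 2 ^ (i * n))| := by congr 1; ring
    _ ≤ |w k - τ' k / 2 ^ ((i + 1) * n)| + |(τ' k : ℝ) / 2 ^ ((i + 1) * n) - τ k / 2 ^ (i * n)| := abs_add_le _ _
    _ ≤ (C0 + 1) / 2 ^ (i * n) + 1 / 2 ^ (i * n) := by linarith
    _ = _ := by ring

/-- scalar product in the frame -/
lemma dot_frame (θ : ℝ) (ψ d : Fin 2 → ℝ) : ψ 0 * d 0 + ψ 1 * d 1 = fw θ ψ * fw θ d + fn θ ψ * fn θ d := by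
  have := Real.sin_sq_add_cos_sq θ
  unfold fw fn
  linear_combination (-(ψ 0 * d 0 + ψ 1 * d 1)) * this

/-- a column and the normal coordinate determine the vector -/
lemma determine {C0 : ℝ} (hC0 : 1 ≤ C0) {θ : ℝ} {ψ : Fin 2 → ℝ} (h1 : C0⁻¹ ≤ |fw θ ψ|) (h0 : |ψ 0| ≤ C0) (h2 : |ψ 1| ≤ C0)
    (d : Fin 2 → ℝ) : |d 0| + |d 1| ≤ (2 * C0 + 4 * C0 ^ 2 + 2) * (|ψ 0 * d 0 + ψ 1 * d 1| + |fn θ d|) := by
  have a0 := abs_c0_le θ d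
  have a1 := abs_c1_le θ d
  have a2 : |fn θ ψ| ≤ 2 * C0 := (abs_fn_le θ ψ).trans (by linarith)
  have e := dot_frame θ ψ d
  have hC : 0 < C0 := by linarith
  have a3 : |fw θ ψ| * |fw θ d| ≤ |ψ 0 * d 0 + ψ 1 * d 1| + 2 * C0 * |fn θ d| := by
    rw [← abs_mul]
    have : fw θ ψ * fw θ d = (ψ 0 * d 0 + ψ 1 * d 1) - fn θ ψ * fn θ d := by rw [e]; ring
    rw [this]
    calc |(ψ 0 * d 0 + ψ 1 * d 1) - fn θ ψ * fn θ d| ≤ |ψ 0 * d 0 + ψ 1 * d 1| + |fn θ ψ * fn θ d| := abs_sub _ _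
      _ = |ψ 0 * d 0 + ψ 1 * d 1| + |fn θ ψ| * |fn θ d| := by rw [abs_mul]
      _ ≤ _ := by gcongr
  have a4 : |fw θ d| ≤ C0 * (|ψ 0 * d 0 + ψ 1 * d 1| + 2 * C0 * |fn θ d|) := by
    calc |fw θ d| = C0 * (C0⁻¹ * |fw θ d|) := by field_simp
      _ ≤ C0 * (|fw θ ψ| * |fw θ d|) := by gcongr
      _ ≤ _ := by gcongr
  have p1 := abs_nonneg (ψ 0 * d 0 + ψ 1 * d 1)
  have p2 := abs_nonneg (fn θ d)
  have p3 : 0 ≤ C0 * |ψ 0 * d 0 + ψ 1 * d 1| := by positivity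
  have p4 : 0 ≤ C0 ^ 2 * |ψ 0 * d 0 + ψ 1 * d 1| := by positivity
  have p5 : 0 ≤ C0 * |fn θ d| := by positivity
  nlinarith

/-- a set contained in a long interval of columns -/
lemma card_column {ι : Type*} [DecidableEq ι] (G J : Finset ι) (f : ι → ℝ) (q : ℕ) (hJ : J ⊆ G) (a c : ℝ) (N : ℕ) (hN : c ≤ N)
    (hq : ∀ r : ℝ, (G.filter fun t => |f t - r| ≤ 1).card ≤ q) (h : ∀ t ∈ J, |f t - a| ≤ c) :
    J.card ≤ (2 * N + 1) * q := by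
  classical
  have hsub : J ⊆ (Finset.Icc (-(N : ℤ)) N).biUnion fun j => G.filter fun t => |f t - (a + j)| ≤ 1 := by
    intro t ht
    have h1 := h t ht
    rw [Finset.mem_biUnion]
    refine ⟨⌊f t - a⌋, ?_, ?_⟩
    · rw [Finset.mem_Icc]
      have h2 := abs_le.1 (h1.trans hN)
      constructor
      · apply Int.le_floor.2; push_cast; linarith
      · have := Int.floor_le (f t - a)
        have : (⌊f t - a⌋ : ℝ) ≤ N := by linarith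
        exact_mod_cast this
    · rw [Finset.mem_filter]
      refine ⟨hJ ht, ?_⟩
      have h3 := Int.floor_le (f t - a)
      have h4 := Int.lt_floor_add_one (f t - a)
      rw [abs_le]; constructor <;> linarith
  calc J.card ≤ _ := Finset.card_le_card hsub
    _ ≤ ∑ j ∈ Finset.Icc (-(N : ℤ)) N, (G.filter fun t => |f t - (a + j)| ≤ 1).card := Finset.card_biUnion_le
    _ ≤ ∑ j ∈ Finset.Icc (-(N : ℤ)) N, q := Finset.sum_le_sum fun j _ => hq _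
    _ = (2 * N + 1) * q := by
        rw [Finset.sum_const, Int.card_Icc, smul_eq_mul]
        congr 1
        omega

/-- [near2] columns -/
theorem near2 (K : ℕ) (C0 : ℝ) (hC0 : 1 ≤ C0) : ∃ (c : ℝ) (m : ℕ), 1 ≤ c ∧ ∀ (n : ℕ) (Q : Set (Fin 2 → ℝ))
    (h : (Fin 2 → ℝ) → ℝ) (v : (Fin 2 → ℝ) → Fin 2 → ℝ) (g : Z2 → E3 → ℂ), Srf C0 Q h v → Dat C0 K n Q h v g →
    ∀ i : ℕ, 1 ≤ i → i < K → ∀ (τ : Z2) (θ : ℝ), ∃ ψ : Fin 2 → ℝ, |ψ 0| ≤ c ∧ |ψ 1| ≤ c ∧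
    (∀ τ' ∈ kids n τ, ∀ τ'' ∈ kids n τ, |(τ' 0 : ℝ) - τ'' 0| + |(τ' 1 : ℝ) - τ'' 1| ≤
      c * (|ψ 0 * (τ' 0 - τ'' 0) + ψ 1 * (τ' 1 - τ'' 1)| +
        2 ^ ((i + 1) * n) * |fn θ (slp n (i + 1) τ') - fn θ (slp n (i + 1) τ'')| + 1)) ∧
    ∀ G : Finset Z2, G ⊆ kids n τ → ∀ q : ℕ, (∀ r : ℝ, (G.filter fun t => |ψ 0 * t 0 + ψ 1 * t 1 - r| ≤ 1).card ≤ q) →
      ∀ (s : Fin 2 → ℝ), ∀ k ∈ G, ∀ J ⊆ G, (∀ l ∈ J, ∃ ξ η, gs K n g (i + 1) k ξ ≠ 0 ∧ gs K n g (i + 1) l η ≠ 0 ∧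
        Dual 1 θ (2 ^ ((i + 1) * n)) (2 ^ (i * n)) (2 ^ (2 * i * n)) s (ξ - η)) → J.card ≤ m * q := by
  classical
  set B : ℝ := 2 * C0 * (C0 * (2 * (C0 + 2))) ^ 2 with hB
  set c1 : ℝ := 1 + B + 4 * C0 * (C0 + 1) with hc1
  refine ⟨2 * C0 + 4 * C0 ^ 2 + 2, 2 * ⌈c1⌉₊ + 1, by nlinarith, ?_⟩
  intro n Q h v g S D i hi1 hiK τ θ
  have hC : 0 < C0 := by linarith
  have hB0 : 0 ≤ B := by rw [hB]; positivity
  -- the determining clause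
  have det : ∀ ψ : Fin 2 → ℝ, C0⁻¹ ≤ |fw θ ψ| → |ψ 0| ≤ C0 → |ψ 1| ≤ C0 → ∀ τ' τ'' : Z2,
      |(τ' 0 : ℝ) - τ'' 0| + |(τ' 1 : ℝ) - τ'' 1| ≤
      (2 * C0 + 4 * C0 ^ 2 + 2) * (|ψ 0 * (τ' 0 - τ'' 0) + ψ 1 * (τ' 1 - τ'' 1)| +
        2 ^ ((i + 1) * n) * |fn θ (slp n (i + 1) τ') - fn θ (slp n (i + 1) τ'')| + 1) := by
    intro ψ h1 h0 h2 τ' τ''
    have hd := determine hC0 h1 h0 h2 (fun j => (τ' j : ℝ) - τ'' j)
    have e : (2:ℝ) ^ ((i + 1) * n) * |fn θ (slp n (i + 1) τ') - fn θ (slp n (i + 1) τ'')| =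
        |fn θ (fun j => (τ' j : ℝ) - τ'' j)| := by
      have p : (0:ℝ) < 2 ^ ((i + 1) * n) := by positivity
      have e2 : (fn θ fun j => (τ' j : ℝ) - τ'' j) =
          2 ^ ((i + 1) * n) * (fn θ (slp n (i + 1) τ') - fn θ (slp n (i + 1) τ'')) := by
        simp only [fn, slp]
        field_simp
        ring
      rw [e2, abs_mul, abs_of_pos p]
    rw [e]
    refine hd.trans ?_
    have : 0 ≤ 2 * C0 + 4 * C0 ^ 2 + 2 := by positivity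
    apply mul_le_mul_of_nonneg_left _ this
    linarith
  by_cases hs : ∃ τ' ∈ kids n τ, ∃ ξ, gs K n g (i + 1) τ' ξ ≠ 0
  · obtain ⟨τ0, hτ0, ξ0, hξ0⟩ := hs
    obtain ⟨hQ0, hv0⟩ := slope_gs hC0 D (by omega : i + 1 ≤ K) hξ0
    have hv0' := slope_par hC0 hτ0 hv0
    obtain ⟨ψ, hψ, hψ0, hψ1, hcol⟩ := S.col θ (hz ξ0) hQ0
    refine ⟨ψ, by nlinarith, by nlinarith, fun τ' _ τ'' _ => det ψ hψ hψ0 hψ1 τ' τ'', ?_⟩
    intro G hG q hq s k hk J hJ hJ'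
    refine card_column G J (fun t => ψ 0 * t 0 + ψ 1 * t 1) q hJ (ψ 0 * k 0 + ψ 1 * k 1) c1 ⌈c1⌉₊ (Nat.le_ceil _) hq ?_
    intro l hl
    obtain ⟨ξ, η, hξ, hη, hdual⟩ := hJ' l hl
    obtain ⟨hQξ, hvξ⟩ := slope_gs hC0 D (by omega : i + 1 ≤ K) hξ
    obtain ⟨hQη, hvη⟩ := slope_gs hC0 D (by omega : i + 1 ≤ K) hη
    have hvξ' := slope_par hC0 (hG hk) hvξ
    have hvη' := slope_par hC0 (hG (hJ hl)) hvη
    have p2 : (0:ℝ) < 2 ^ (i * n) := by positivity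
    have pp : (0:ℝ) < 2 ^ ((i + 1) * n) := by positivity
    -- distance to the base point
    have near : ∀ ζ : Fin 2 → ℝ, ζ ∈ Q → (∀ k, |v ζ k - τ k / 2 ^ (i * n)| ≤ (C0 + 2) / 2 ^ (i * n)) →
        ‖ζ - hz ξ0‖ ≤ C0 * (2 * (C0 + 2)) / 2 ^ (i * n) := by
      intro ζ hζ hvζ
      have : ‖v ζ - v (hz ξ0)‖ ≤ 2 * (C0 + 2) / 2 ^ (i * n) := by
        rw [pi_norm_le_iff_of_nonneg (by positivity)]
        intro k
        rw [Pi.sub_apply, Real.norm_eq_abs]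
        calc |v ζ k - v (hz ξ0) k| = |(v ζ k - τ k / 2 ^ (i * n)) - (v (hz ξ0) k - τ k / 2 ^ (i * n))| := by
              congr 1; ring
          _ ≤ |v ζ k - τ k / 2 ^ (i * n)| + |v (hz ξ0) k - τ k / 2 ^ (i * n)| := abs_sub _ _
          _ ≤ (C0 + 2) / 2 ^ (i * n) + (C0 + 2) / 2 ^ (i * n) := add_le_add (hvζ k) (hv0' k)
          _ = _ := by ring
      calc ‖ζ - hz ξ0‖ ≤ C0 * ‖v ζ - v (hz ξ0)‖ := S.lo _ hζ _ hQ0
        _ ≤ C0 * (2 * (C0 + 2) / 2 ^ (i * n)) := by gcongr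
        _ = _ := by ring
    have sq : ∀ ζ : Fin 2 → ℝ, ζ ∈ Q → (∀ k, |v ζ k - τ k / 2 ^ (i * n)| ≤ (C0 + 2) / 2 ^ (i * n)) →
        |fw θ (fun j => ζ j - hz ξ0 j) + ψ 0 * (v ζ 0 - v (hz ξ0) 0) + ψ 1 * (v ζ 1 - v (hz ξ0) 1)| ≤
          B / 2 / 2 ^ ((i + 1) * n) := by
      intro ζ hζ hvζ
      refine (hcol ζ hζ).trans ?_
      have h1 := near ζ hζ hvζ
      have h2 : ‖ζ - hz ξ0‖ ^ 2 ≤ (C0 * (2 * (C0 + 2)) / 2 ^ (i * n)) ^ 2 := by gcongr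
      have h3 : (2:ℝ) ^ ((i + 1) * n) ≤ (2 ^ (i * n)) ^ 2 := by
        rw [← pow_mul]
        apply pow_le_pow_right₀ (by norm_num)
        nlinarith
      calc C0 * ‖ζ - hz ξ0‖ ^ 2 ≤ C0 * (C0 * (2 * (C0 + 2)) / 2 ^ (i * n)) ^ 2 := by gcongr
        _ = (B / 2) / (2 ^ (i * n)) ^ 2 := by rw [hB]; field_simp
        _ ≤ _ := by gcongr
    have s1 := sq _ hQξ hvξ'
    have s2 := sq _ hQη hvη'
    have hw : |fw θ (fun j => hz ξ j - hz η j)| ≤ 1 / 2 ^ ((i + 1) * n) := by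
      have := hdual.1
      have e : hz (ξ - η) = fun j => hz ξ j - hz η j := by
        funext j; fin_cases j <;> simp [hz]
      rwa [e] at this
    have s3 : |ψ 0 * (v (hz ξ) 0 - v (hz η) 0) + ψ 1 * (v (hz ξ) 1 - v (hz η) 1)| ≤ (1 + B) / 2 ^ ((i + 1) * n) := by
      have e : ψ 0 * (v (hz ξ) 0 - v (hz η) 0) + ψ 1 * (v (hz ξ) 1 - v (hz η) 1) =
          (fw θ (fun j => hz ξ j - hz ξ0 j) + ψ 0 * (v (hz ξ) 0 - v (hz ξ0) 0) + ψ 1 * (v (hz ξ) 1 - v (hz ξ0) 1)) -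
          (fw θ (fun j => hz η j - hz ξ0 j) + ψ 0 * (v (hz η) 0 - v (hz ξ0) 0) + ψ 1 * (v (hz η) 1 - v (hz ξ0) 1)) -
          fw θ (fun j => hz ξ j - hz η j) := by
        simp only [fw]; ring
      rw [e]
      refine (abs_sub _ _).trans ((add_le_add_left (abs_sub _ _) _).trans ?_)
      calc _ ≤ (B / 2 / 2 ^ ((i + 1) * n) + B / 2 / 2 ^ ((i + 1) * n)) + 1 / 2 ^ ((i + 1) * n) := by
            gcongr
        _ = _ := by ring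
    -- from slopes to indices
    have s4 : ∀ (t : Z2) (w : Fin 2 → ℝ), (∀ k, |w k - t k / 2 ^ ((i + 1) * n)| ≤ (C0 + 1) / 2 ^ ((i + 1) * n)) →
        |2 ^ ((i + 1) * n) * (ψ 0 * w 0 + ψ 1 * w 1) - (ψ 0 * t 0 + ψ 1 * t 1)| ≤ 2 * C0 * (C0 + 1) := by
      intro t w hw
      have h0 : |2 ^ ((i + 1) * n) * w 0 - t 0| ≤ C0 + 1 := by
        have := hw 0
        have e : w 0 - t 0 / 2 ^ ((i + 1) * n) = (2 ^ ((i + 1) * n) * w 0 - t 0) / 2 ^ ((i + 1) * n) := by field_simp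
        rw [e, abs_div, abs_of_pos pp] at this
        exact (div_le_div_iff_of_pos_right pp).1 this
      have h1 : |2 ^ ((i + 1) * n) * w 1 - t 1| ≤ C0 + 1 := by
        have := hw 1
        have e : w 1 - t 1 / 2 ^ ((i + 1) * n) = (2 ^ ((i + 1) * n) * w 1 - t 1) / 2 ^ ((i + 1) * n) := by field_simp
        rw [e, abs_div, abs_of_pos pp] at this
        exact (div_le_div_iff_of_pos_right pp).1 this
      calc |2 ^ ((i + 1) * n) * (ψ 0 * w 0 + ψ 1 * w 1) - (ψ 0 * t 0 + ψ 1 * t 1)|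
          = |ψ 0 * (2 ^ ((i + 1) * n) * w 0 - t 0) + ψ 1 * (2 ^ ((i + 1) * n) * w 1 - t 1)| := by congr 1; ring
        _ ≤ |ψ 0 * (2 ^ ((i + 1) * n) * w 0 - t 0)| + |ψ 1 * (2 ^ ((i + 1) * n) * w 1 - t 1)| := abs_add_le _ _
        _ = |ψ 0| * |2 ^ ((i + 1) * n) * w 0 - t 0| + |ψ 1| * |2 ^ ((i + 1) * n) * w 1 - t 1| := by
            rw [abs_mul, abs_mul]
        _ ≤ C0 * (C0 + 1) + C0 * (C0 + 1) := by gcongr
        _ = _ := by ring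
    have s5 := s4 k (v (hz ξ)) hvξ
    have s6 := s4 l (v (hz η)) hvη
    have s7 : |2 ^ ((i + 1) * n) * (ψ 0 * (v (hz ξ) 0 - v (hz η) 0) + ψ 1 * (v (hz ξ) 1 - v (hz η) 1))| ≤ 1 + B := by
      rw [abs_mul, abs_of_pos pp]
      calc _ ≤ 2 ^ ((i + 1) * n) * ((1 + B) / 2 ^ ((i + 1) * n)) := by gcongr
        _ = _ := by field_simp
    calc |ψ 0 * (l 0 : ℝ) + ψ 1 * l 1 - (ψ 0 * k 0 + ψ 1 * k 1)|
        = |(2 ^ ((i + 1) * n) * (ψ 0 * v (hz ξ) 0 + ψ 1 * v (hz ξ) 1) - (ψ 0 * k 0 + ψ 1 * k 1)) -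
          (2 ^ ((i + 1) * n) * (ψ 0 * v (hz η) 0 + ψ 1 * v (hz η) 1) - (ψ 0 * l 0 + ψ 1 * l 1)) -
          2 ^ ((i + 1) * n) * (ψ 0 * (v (hz ξ) 0 - v (hz η) 0) + ψ 1 * (v (hz ξ) 1 - v (hz η) 1))| := by
          congr 1; ring
      _ ≤ (2 * C0 * (C0 + 1) + 2 * C0 * (C0 + 1)) + (1 + B) := by
          refine (abs_sub _ _).trans (add_le_add ((abs_sub _ _).trans (add_le_add s5 s6)) s7)
      _ = c1 := by rw [hc1]; ring
  · refine ⟨fun j => if j = 0 then Real.cos θ else Real.sin θ, ?_, ?_, ?_, ?_⟩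
    · have := Real.abs_cos_le_one θ
      simp only [if_true]; nlinarith
    · have := Real.abs_sin_le_one θ
      simp; nlinarith
    · intro τ' _ τ'' _
      refine det (fun j => if j = 0 then Real.cos θ else Real.sin θ) ?_ ?_ ?_ τ' τ''
      · have : fw θ (fun j : Fin 2 => if j = 0 then Real.cos θ else Real.sin θ) = 1 := by
          simp [fw]; nlinarith [Real.sin_sq_add_cos_sq θ]
        rw [this, abs_one]
        exact inv_le_one_of_one_le₀ hC0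
      · have := Real.abs_cos_le_one θ
        simp only [if_true]; linarith
      · have := Real.abs_sin_le_one θ
        simp; linarith
    · intro G hG q hq s k hk J hJ hJ'
      have : J = ∅ := by
        rw [Finset.eq_empty_iff_forall_notMem]
        intro l hl
        obtain ⟨ξ, η, hξ, hη, -⟩ := hJ' l hl
        exact hs ⟨k, hG hk, ξ, hξ⟩
      rw [this]; simp

end Vale.Agent.P122.W840
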